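import Crest.Agent.RI.ConcP
import Crest.Agent.RI.Site

/-!
# Row 164, Part 7: interface form of (H5)
-/

set_option autoImplicit false

namespace Crest.Agent.RI

open MeasureTheory ProbabilityTheory
open Crest.ProbabilityR.InvariantGlass

/-- PROOF.  `η = min_l α_l / 2` (or any `η > 0` with `η ≤ α_l/2` for all `l`), `A = Σ_l 2/α_l`: `D.Close η κ` gives `N_l ≥ N α_l / 2` for all labels, so
`N ≤ A * #{a | κ a = κ b}`.  `pressure_four` with `D = Σ_l |d_l|`, `N₀ = 1`, `C = cstP ..`; `|x|^4 = x^4`. -/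
theorem pressure_conc (D : Blk) {J : ℕ} (c : Fin J → ℝ) : ∃ (C : ℝ) (N₀ : ℕ) (η : ℝ), 0 < η ∧
    ∀ N ≥ N₀, ∀ κ : Fin N → Fin D.K, D.Close η κ → ∀ lab : Fin N → Fin J,
    ∀ P : Measure (Fin N → Fin N → ℝ), IsHaar P →
    ∫ U, |pressureFieldN (fun a => D.d (κ a)) (Matrix.of U) (fun r => c (lab r)) -
      ∫ U', pressureFieldN (fun a => D.d (κ a)) (Matrix.of U') (fun r => c (lab r)) ∂P| ^ 4 ∂P ≤
      C / (N : ℝ) ^ 2 := by
  have hne : Nonempty (Fin D.K) := by
    by_contra h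
    rw [not_nonempty_iff] at h
    have h1 := D.sum
    rw [Finset.univ_eq_empty, Finset.sum_empty] at h1
    exact zero_ne_one h1
  obtain ⟨l0, hl0⟩ := Finite.exists_min D.α
  have h0 : 0 < D.α l0 := D.pos l0
  refine ⟨cstP (∑ l, |D.d l|) (2 / D.α l0), 1, D.α l0 / 2, by positivity, ?_⟩
  intro N hN κ hκ lab P hP
  have hN0 : 0 < N := hN
  have hNR : (0 : ℝ) < N := by exact_mod_cast hN0
  have hA : ∀ b, (N : ℝ) ≤ 2 / D.α l0 *
      ((Finset.univ.filter (fun a => κ a = κ b)).card : ℝ) := by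
    intro b
    have h1 := (abs_le.1 (hκ (κ b))).1
    have h2 := hl0 (κ b)
    have h3 : D.α l0 / 2 ≤ ((Finset.univ.filter (fun a => κ a = κ b)).card : ℝ) / (N : ℝ) := by
      linarith
    rw [le_div_iff₀ hNR] at h3
    rw [div_mul_eq_mul_div, le_div_iff₀ h0]
    linarith
  have h := pressure_four κ D.d (fun r => c (lab r)) hP
    (Finset.sum_nonneg fun l _ => abs_nonneg (D.d l))
    (fun l => Finset.single_le_sum (f := fun l => |D.d l|) (fun i _ => abs_nonneg _)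
      (Finset.mem_univ l)) hN0 hA
  have h4 : ∀ x : ℝ, |x| ^ 4 = x ^ 4 := fun x => by
    rw [pow_abs, abs_of_nonneg (by positivity)]
  simp only [h4]
  exact h

end Crest.Agent.RI
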