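import Mathlib

/-!
# Row 164, Part 12 (S0249), file a: refinement of labels
-/

set_option autoImplicit false

namespace Crest.Agent.RI

open Filter Finset

/-- a function with prescribed fibre sizes -/
theorem exists_fiber_card {α : Type*} [Fintype α] [DecidableEq α] {J : ℕ} (m : Fin J → ℕ)
    (h : ∑ j, m j = Fintype.card α) :
    ∃ f : α → Fin J, ∀ j, (univ.filter fun a => f a = j).card = m j := by
  classical
  have hc : Fintype.card α = Fintype.card (Σ j : Fin J, Fin (m j)) := by
    rw [Fintype.card_sigma, ← h]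
    simp
  let e : α ≃ (Σ j : Fin J, Fin (m j)) := Fintype.equivOfCardEq hc
  refine ⟨fun a => (e a).1, fun j => ?_⟩
  have h1 : (univ.filter fun a => (e a).1 = j).card =
      (univ.filter fun x : (Σ j : Fin J, Fin (m j)) => x.1 = j).card := by
    refine Finset.card_bij (fun a _ => e a) ?_ ?_ ?_
    · intro a ha
      simpa using ha
    · intro a _ b _ hab
      exact e.injective hab
    · intro x hx
      exact ⟨e.symm x, by simpa using hx, by simp⟩
  rw [h1]
  have h2 : (univ.filter fun x : (Σ j : Fin J, Fin (m j)) => x.1 = j) =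
      (univ : Finset (Fin (m j))).map ⟨fun t => ⟨j, t⟩, fun s t hst => by simpa using hst⟩ := by
    ext ⟨i, t⟩
    simp only [Finset.mem_filter, Finset.mem_univ, true_and, Finset.mem_map, Function.Embedding.coeFn_mk]
    constructor
    · rintro rfl
      exact ⟨t, rfl⟩
    · rintro ⟨s, hs⟩
      exact (congrArg Sigma.fst hs).symm
  rw [h2, card_map, card_univ, Fintype.card_fin]

/-- a function whose fibre sizes are within `J` of given proportions -/
theorem exists_fiber_approx {α : Type*} [Fintype α] [DecidableEq α] {J : ℕ} (q : Fin J → ℝ)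
    (hq : ∀ j, 0 ≤ q j) (hs : ∑ j, q j = 1) :
    ∃ f : α → Fin J, ∀ j, |((univ.filter fun a => f a = j).card : ℝ) - Fintype.card α * q j| ≤ J := by
  classical
  have hJ : 0 < J := by
    rcases Nat.eq_zero_or_pos J with rfl | h
    · simp at hs
    · exact h
  set n : ℕ := Fintype.card α with hn
  let j0 : Fin J := ⟨0, hJ⟩
  let fl : Fin J → ℕ := fun j => ⌊(n : ℝ) * q j⌋₊
  have hfl1 : ∀ j, (fl j : ℝ) ≤ n * q j := fun j =>
    Nat.floor_le (mul_nonneg (Nat.cast_nonneg _) (hq j))
  have hfl2 : ∀ j, (n : ℝ) * q j < fl j + 1 := fun j => Nat.lt_floor_add_one _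
  have hsum1 : ∑ j, fl j ≤ n := by
    have : ((∑ j, fl j : ℕ) : ℝ) ≤ (n : ℝ) := by
      push_cast
      calc ∑ j, (fl j : ℝ) ≤ ∑ j, (n : ℝ) * q j := Finset.sum_le_sum fun j _ => hfl1 j
        _ = n := by rw [← Finset.mul_sum, hs, mul_one]
    exact_mod_cast this
  have hsum2 : (n : ℝ) - ((∑ j, fl j : ℕ) : ℝ) ≤ J := by
    have : (n : ℝ) ≤ ((∑ j, fl j : ℕ) : ℝ) + J := by
      push_cast
      calc (n : ℝ) = ∑ j, (n : ℝ) * q j := by rw [← Finset.mul_sum, hs, mul_one]
        _ ≤ ∑ j, ((fl j : ℝ) + 1) := Finset.sum_le_sum fun j _ => (hfl2 j).le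
        _ = ∑ j, (fl j : ℝ) + J := by rw [Finset.sum_add_distrib]; simp
    linarith
  let m : Fin J → ℕ := fun j => if j = j0 then fl j0 + (n - ∑ j, fl j) else fl j
  have hm : ∑ j, m j = n := by
    have h1 : ∑ j, m j = ∑ j, fl j + ∑ j, (if j = j0 then (n - ∑ j, fl j) else 0) := by
      rw [← Finset.sum_add_distrib]
      refine Finset.sum_congr rfl fun j _ => ?_
      by_cases hj : j = j0
      · simp [m, hj]
      · simp [m, hj]
    rw [h1]
    simp only [Finset.sum_ite_eq', Finset.mem_univ, if_true]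
    omega
  obtain ⟨f, hf⟩ := exists_fiber_card (α := α) m (by rw [hm])
  refine ⟨f, fun j => ?_⟩
  rw [hf j]
  have h1 := hfl1 j
  have h2 := hfl2 j
  have hJ1 : (1 : ℝ) ≤ J := by exact_mod_cast hJ
  by_cases hj : j = j0
  · subst hj
    have h3 : ((m j0 : ℕ) : ℝ) = fl j0 + ((n : ℝ) - ((∑ j, fl j : ℕ) : ℝ)) := by
      simp only [m, if_true]
      rw [Nat.cast_add, Nat.cast_sub hsum1]
    have h4 : (0 : ℝ) ≤ (n : ℝ) - ((∑ j, fl j : ℕ) : ℝ) := by
      have : ((∑ j, fl j : ℕ) : ℝ) ≤ n := by exact_mod_cast hsum1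
      linarith
    rw [h3, abs_le]
    constructor <;> linarith
  · have h3 : ((m j : ℕ) : ℝ) = fl j := by simp [m, hj]
    rw [h3, abs_le]
    constructor <;> linarith

/-- number of sites with label `j` -/
noncomputable def propL {N J : ℕ} (lab : Fin N → Fin J) (j : Fin J) : ℝ :=
  ((univ.filter fun r : Fin N => lab r = j).card : ℝ) / (N : ℝ)

/-- REFINEMENT OF LABELS. -/
theorem exists_refine {L J : ℕ} (lab : (N : ℕ) → Fin N → Fin L) (a : Fin L → ℝ)
    (ha : ∀ l, Tendsto (fun N => propL (lab N) l) atTop (nhds (a l)))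
    (π : Fin L → Fin J → ℝ) (hπ : ∀ l j, 0 ≤ π l j) (hrow : ∀ l, ∑ j, π l j = a l) (hJ : 0 < J) :
    ∃ lab2 : (N : ℕ) → Fin N → Fin J, ∀ l j, Tendsto
      (fun N => ((univ.filter fun r : Fin N => lab N r = l ∧ lab2 N r = j).card : ℝ) / (N : ℝ))
      atTop (nhds (π l j)) := by
  classical
  let j0 : Fin J := ⟨0, hJ⟩
  -- conditional proportions
  let q : Fin L → Fin J → ℝ := fun l j => if a l = 0 then (if j = j0 then 1 else 0) else π l j / a l
  have ha0 : ∀ l, 0 ≤ a l := fun l => by rw [← hrow l]; exact Finset.sum_nonneg fun j _ => hπ l j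
  have hq : ∀ l j, 0 ≤ q l j := by
    intro l j
    simp only [q]
    split_ifs
    · exact zero_le_one
    · exact le_rfl
    · exact div_nonneg (hπ l j) (ha0 l)
  have hqs : ∀ l, ∑ j, q l j = 1 := by
    intro l
    simp only [q]
    by_cases h : a l = 0
    · simp [h]
    · simp only [h, if_false]
      rw [← Finset.sum_div, hrow l, div_self h]
  have haq : ∀ l j, a l * q l j = π l j := by
    intro l j
    simp only [q]
    by_cases h : a l = 0
    · have h1 : π l j = 0 := by
        have h2 : ∑ j, π l j = 0 := by rw [hrow l, h]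
        exact (Finset.sum_eq_zero_iff_of_nonneg fun j _ => hπ l j).1 h2 j (Finset.mem_univ j)
      rw [h, zero_mul, h1]
    · simp only [h, if_false]
      field_simp
  have key : ∀ N : ℕ, ∃ lab2 : Fin N → Fin J, ∀ l j,
      |((univ.filter fun r : Fin N => lab N r = l ∧ lab2 r = j).card : ℝ) -
        ((univ.filter fun r : Fin N => lab N r = l).card : ℝ) * q l j| ≤ J := by
    intro N
    choose f hf using fun l : Fin L =>
      exists_fiber_approx (α := {r : Fin N // lab N r = l}) (q l) (hq l) (hqs l)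
    refine ⟨fun r => f (lab N r) ⟨r, rfl⟩, fun l j => ?_⟩
    have h1 := hf l j
    have h2 : Fintype.card {r : Fin N // lab N r = l} = (univ.filter fun r : Fin N => lab N r = l).card :=
      Fintype.card_subtype _
    have h3 : (univ.filter fun x : {r : Fin N // lab N r = l} => f l x = j).card =
        (univ.filter fun r : Fin N => lab N r = l ∧ f (lab N r) ⟨r, rfl⟩ = j).card := by
      refine Finset.card_bij (fun x _ => x.1) ?_ ?_ ?_
      · rintro ⟨r, hr⟩ hx
        subst hr
        simpa using hx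
      · intro x _ y _ hxy
        exact Subtype.ext hxy
      · intro r hr
        rw [mem_filter] at hr
        obtain ⟨_, hr1, hr2⟩ := hr
        subst hr1
        exact ⟨⟨r, rfl⟩, by simpa using hr2, rfl⟩
    rw [h2, h3] at h1
    exact h1
  choose lab2 hlab2 using key
  refine ⟨lab2, fun l j => ?_⟩
  have h1 : Tendsto (fun N : ℕ => propL (lab N) l * q l j) atTop (nhds (π l j)) := by
    rw [← haq l j]
    exact (ha l).mul_const _
  have h2 : Tendsto (fun N : ℕ => (J : ℝ) / (N : ℝ)) atTop (nhds 0) :=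
    tendsto_const_div_atTop_nhds_zero_nat _
  have h3 : Tendsto (fun N : ℕ =>
      ((univ.filter fun r : Fin N => lab N r = l ∧ lab2 N r = j).card : ℝ) / (N : ℝ) -
        propL (lab N) l * q l j) atTop (nhds 0) := by
    refine squeeze_zero_norm (fun N => ?_) h2
    rcases Nat.eq_zero_or_pos N with rfl | hN
    · simp [propL]
    · have hN' : (0 : ℝ) < N := by exact_mod_cast hN
      have h4 : ((univ.filter fun r : Fin N => lab N r = l ∧ lab2 N r = j).card : ℝ) / (N : ℝ) -
          propL (lab N) l * q l j =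
          (((univ.filter fun r : Fin N => lab N r = l ∧ lab2 N r = j).card : ℝ) -
            ((univ.filter fun r : Fin N => lab N r = l).card : ℝ) * q l j) / N := by
        unfold propL
        field_simp
      rw [h4, Real.norm_eq_abs, abs_div, abs_of_pos hN']
      exact div_le_div_of_nonneg_right (hlab2 N l j) hN'.le
  simpa using h3.add h1

/-- sums over sites as sums over label pairs -/
theorem sum_labels {N L J : ℕ} (lab : Fin N → Fin L) (lab2 : Fin N → Fin J)
    (w : Fin L → Fin J → ℝ) :
    ∑ r, w (lab r) (lab2 r) = ∑ l, ∑ j,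
      ((univ.filter fun r : Fin N => lab r = l ∧ lab2 r = j).card : ℝ) * w l j := by
  classical
  have h1 : ∀ r, w (lab r) (lab2 r) = ∑ l, ∑ j, if lab r = l ∧ lab2 r = j then w l j else 0 := by
    intro r
    rw [Finset.sum_eq_single (lab r)]
    · rw [Finset.sum_eq_single (lab2 r)]
      · simp
      · intro j _ hj
        rw [if_neg]
        rintro ⟨_, h⟩
        exact hj h.symm
      · intro h
        exact absurd (Finset.mem_univ _) h
    · intro l _ hl
      refine Finset.sum_eq_zero fun j _ => ?_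
      rw [if_neg]
      rintro ⟨h, _⟩
      exact hl h.symm
    · intro h
      exact absurd (Finset.mem_univ _) h
  rw [Finset.sum_congr rfl fun r _ => h1 r, Finset.sum_comm]
  refine Finset.sum_congr rfl fun l _ => ?_
  rw [Finset.sum_comm]
  refine Finset.sum_congr rfl fun j _ => ?_
  rw [← Finset.sum_filter, Finset.sum_const, nsmul_eq_mul]

/-- column proportions -/
theorem propL_eq_sum {N L J : ℕ} (lab : Fin N → Fin L) (lab2 : Fin N → Fin J) (j : Fin J) :
    propL lab2 j = ∑ l, ((univ.filter fun r : Fin N => lab r = l ∧ lab2 r = j).card : ℝ) / (N : ℝ) := by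
  classical
  unfold propL
  rw [← Finset.sum_div]
  congr 1
  have h := sum_labels lab lab2 (fun _ j' => if j' = j then (1 : ℝ) else 0)
  have h1 : ∑ r, (if lab2 r = j then (1 : ℝ) else 0) =
      ((univ.filter fun r : Fin N => lab2 r = j).card : ℝ) := by
    rw [Finset.sum_boole]
  rw [← h1, h]
  refine Finset.sum_congr rfl fun l _ => ?_
  simp

end Crest.Agent.RI
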