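import Crest.Agent.RI.SysB
import Crest.Agent.RI.SysC
import Crest.Agent.RI.SysD

/-! # Row 164: basic facts on the concrete system (collection) -/
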