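import Crest.Agent.RI.TTDefs
import Crest.Agent.RI.TanC
import Crest.Agent.RI.VCont
import Crest.Agent.RI.RBClosure
import Crest.Agent.RI.RCfacts
import Crest.Agent.RI.RowDefs
import Crest.Agent.RI.RowAvg
import Crest.Agent.RI.SyncLB
import Crest.Agent.RI.RBG
import Crest.Agent.RI.ExFin

/-!
# Row 164, Parts 2.4, 8.5: statements used by Parts 8.6, 9: collected imports
-/

set_option autoImplicit false

namespace Crest.Agent.RI

open MeasureTheory ProbabilityTheory

variable {K k : ℕ}

/-! `rC_nonneg`, `rC_sum`, `tauC_nonneg`, `hC_bound` are proved in `RI/RCfacts.lean` (helper50). -/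

/-! (CLOSURE, lower bound form): `closure_LB` is proved in `RI/RBClosure.lean` (helper50). -/

/-! `rowVal` is defined in `RI/RowDefs.lean` (helper35). -/

/-! (EXACT EVALUATION 8.5): `TT_exact` is proved in `RI/ExFin.lean` (helper35). -/

/-! (AVERAGE 8.5) `row_avg` is proved in `RI/RowAvg.lean` (helper50). -/

end Crest.Agent.RI
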