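import Crest.Agent.RI.TMeasA
import Crest.Agent.RI.TMeasB
import Crest.Agent.RI.TMeasC
import Crest.Agent.RI.TBasicA
import Crest.Agent.RI.TBasicB
import Crest.Agent.RI.TPairA
import Crest.Agent.RI.TPairB
import Crest.Agent.RI.TConvA
import Crest.Agent.RI.TConvB
import Crest.Agent.RI.TMapA
import Crest.Agent.RI.TMapB
import Crest.Agent.RI.TDerA
import Crest.Agent.RI.TDerB
import Crest.Agent.RI.TVar
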