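import Crest.Agent.RI.UBDerV
import Crest.Agent.RI.UBDerX

/-! # Row 164, Part 6: derivatives in the parameters (collection: UBDerV helper93, UBDerX helper94) -/
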